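import Vale.Agent.P151.R3.H17.Lin

/-!
P151, route R3: the elliptic lemma.  In a quasi-line, if the powers of `g` stay in a bounded set,
`g ^ 2` is uniformly short.
-/

universe u

open Pointwise

namespace Vale.Agent.P151.R3.H17

/-- The integer form of the elliptic lemma. -/
theorem ell_sorted (κ : ℤ → ℤ) (D : ℤ) (j0 : ℤ) (hmax : ∀ j, κ j ≤ κ j0)
    (h : ∀ i j t, |κ (i + t) - κ (j + t)| ≤ |κ i - κ j| + 4 * D) (a b c : ℤ) (hab : κ a ≤ κ b)
    (hbc : κ b ≤ κ c) : |κ a - κ b| ≤ 6 * D ∨ |κ b - κ c| ≤ 6 * D := by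
  have h1 := h a b (j0 - b)
  have h2 := h c b (j0 - b)
  have h3 := h (a + (j0 - b)) (b + (j0 - b)) (-(j0 - b))
  have h4 := h (c + (j0 - b)) (b + (j0 - b)) (-(j0 - b))
  have h5 := h (a + (j0 - b)) (c + (j0 - b)) (-(j0 - b))
  simp only [add_neg_cancel_right] at h3 h4 h5
  rw [show b + (j0 - b) = j0 by ring] at h1 h2 h3 h4
  have m1 := hmax (a + (j0 - b))
  have m2 := hmax (c + (j0 - b))
  generalize κ (a + (j0 - b)) = x at *
  generalize κ (c + (j0 - b)) = y at *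
  generalize κ j0 = z at *
  generalize κ a = a at *
  generalize κ b = b at *
  generalize κ c = c at *
  rw [abs_of_nonpos (by omega : a - b ≤ 0)] at h1 h3 ⊢
  rw [abs_of_nonneg (by omega : 0 ≤ c - b)] at h2 h4
  rw [abs_of_nonpos (by omega : b - c ≤ 0)]
  rw [abs_of_nonpos (by omega : a - c ≤ 0)] at h5
  rw [abs_of_nonpos (by omega : x - z ≤ 0)] at h1 h3
  rw [abs_of_nonpos (by omega : y - z ≤ 0)] at h2 h4
  rcases le_total x y with hxy | hxy
  · rw [abs_of_nonpos (by omega : x - y ≤ 0)] at h5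
    omega
  · rw [abs_of_nonneg (by omega : 0 ≤ x - y)] at h5
    omega

theorem ell_int (κ : ℤ → ℤ) (D B : ℤ) (hB : ∀ j, κ j ≤ B)
    (h : ∀ i j t, |κ (i + t) - κ (j + t)| ≤ |κ i - κ j| + 4 * D) :
    |κ 0 - κ 1| ≤ 6 * D ∨ |κ 1 - κ 2| ≤ 6 * D ∨ |κ 0 - κ 2| ≤ 6 * D := by
  obtain ⟨z, ⟨j0, hj0⟩, hz⟩ := Int.exists_greatest_of_bdd (P := fun z => ∃ j, κ j = z)
    ⟨B, by rintro z ⟨j, rfl⟩; exact hB j⟩ ⟨κ 0, 0, rfl⟩
  have hmax : ∀ j, κ j ≤ κ j0 := fun j => by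
    rw [hj0]
    exact hz _ ⟨j, rfl⟩
  have key := ell_sorted κ D j0 hmax h
  have hs : ∀ a b, |κ a - κ b| = |κ b - κ a| := fun a b => abs_sub_comm _ _
  rcases le_total (κ 0) (κ 1) with h1 | h1
  · rcases le_total (κ 1) (κ 2) with h2 | h2
    · rcases key 0 1 2 h1 h2 with h3 | h3
      · exact Or.inl h3
      · exact Or.inr (Or.inl h3)
    · rcases le_total (κ 0) (κ 2) with h4 | h4
      · rcases key 0 2 1 h4 h2 with h3 | h3
        · exact Or.inr (Or.inr h3)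
        · rw [hs] at h3
          exact Or.inr (Or.inl h3)
      · rcases key 2 0 1 h4 h1 with h3 | h3
        · rw [hs] at h3
          exact Or.inr (Or.inr h3)
        · exact Or.inl h3
  · rcases le_total (κ 0) (κ 2) with h2 | h2
    · rcases key 1 0 2 h1 h2 with h3 | h3
      · rw [hs] at h3
        exact Or.inl h3
      · exact Or.inr (Or.inr h3)
    · rcases le_total (κ 1) (κ 2) with h4 | h4
      · rcases key 1 2 0 h4 h2 with h3 | h3
        · exact Or.inr (Or.inl h3)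
        · rw [hs] at h3
          exact Or.inr (Or.inr h3)
      · rcases key 2 1 0 h4 h1 with h3 | h3
        · rw [hs] at h3
          exact Or.inr (Or.inl h3)
        · rw [hs] at h3
          exact Or.inl h3

variable {G : Type u} [Group G]

/-- **ELLIPTIC LEMMA.** -/
theorem elliptic {S : Set G} (hS : SymOne S) {m : ℕ} (F : Finset G) (hF : ∀ x ∈ F, x ∈ S ^ m)
    (hs : SSep S F)
    (hF4 : ∀ F' : Finset G, (∀ x ∈ F', x ∈ S ^ (3 * m + 2)) → SSep S F' → F'.card < 4 * F.card)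
    (hu : ∀ m, ¬ (S ^ (m + 1) ⊆ S ^ m)) (g : G) (B : ℕ) (hg : ∀ j : ℤ, g ^ j ∈ S ^ B) :
    g ^ 2 ∈ S ^ (16 * (2 * m + 1)) := by
  obtain ⟨γ, hγ⟩ := exists_geo hS hu (B + 4 * m + 2) (by omega)
  have h1 : ∀ j : ℤ, ∃ k ≤ 2 * (B + 4 * m + 2), (γ k)⁻¹ * g ^ j ∈ S ^ (2 * m + 1) := fun j =>
    lin hS F hF hs hF4 hγ B le_rfl (g ^ j) (hg j)
  choose k hk hkS using h1
  have hdist : ∀ i j : ℤ, (g ^ i)⁻¹ * g ^ j ∈
      S ^ ((k i - k j) + (k j - k i) + 2 * (2 * m + 1)) := by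
    intro i j
    have e : (g ^ i)⁻¹ * g ^ j = ((γ (k i))⁻¹ * g ^ i)⁻¹ * ((γ (k i))⁻¹ * γ (k j)) *
        ((γ (k j))⁻¹ * g ^ j) := by group
    rw [e]
    have h2 := hγ.le' hS (m := (k i - k j) + (k j - k i)) (hk i) (hk j) (by omega) (by omega)
    have h3 := mem_pow_add (mem_pow_add (hS.inv_pow (hkS i)) h2) (hkS j)
    exact hS.mono (by omega) h3
  have hback : ∀ i j : ℤ, ∀ a : ℕ, (g ^ i)⁻¹ * g ^ j ∈ S ^ a →
      k j - k i ≤ a + 2 * (2 * m + 1) ∧ k i - k j ≤ a + 2 * (2 * m + 1) := by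
    intro i j a h
    have e : (γ (k i))⁻¹ * γ (k j) = ((γ (k i))⁻¹ * g ^ i) * ((g ^ i)⁻¹ * g ^ j) *
        ((γ (k j))⁻¹ * g ^ j)⁻¹ := by group
    have h3 := mem_pow_add (mem_pow_add (hkS i) h) (hS.inv_pow (hkS j))
    rw [← e] at h3
    have h4 := hγ.ge' hS (hk i) (hk j) h3
    omega
  have hinv : ∀ i j t : ℤ, |(k (i + t) : ℤ) - k (j + t)| ≤ |(k i : ℤ) - k j| +
      4 * ((2 * m + 1 : ℕ) : ℤ) := by
    intro i j t
    have e : (g ^ (i + t))⁻¹ * g ^ (j + t) = (g ^ i)⁻¹ * g ^ j := by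
      rw [← zpow_neg, ← zpow_add, ← zpow_neg, ← zpow_add]
      congr 1
      ring
    have h2 := hdist i j
    rw [← e] at h2
    have h3 := hback _ _ _ h2
    rw [abs_le]
    have h4 : |(k i : ℤ) - k j| = ((k i - k j + (k j - k i) : ℕ) : ℤ) := by
      rcases le_total (k i) (k j) with h | h
      · rw [abs_of_nonpos (by omega)]
        omega
      · rw [abs_of_nonneg (by omega)]
        omega
    rw [h4]
    omega
  have h2 := ell_int (fun j => (k j : ℤ)) ((2 * m + 1 : ℕ) : ℤ) ((2 * (B + 4 * m + 2) : ℕ) : ℤ)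
    (fun j => by exact_mod_cast hk j) hinv
  have hfin : ∀ i j : ℤ, |(k i : ℤ) - k j| ≤ 6 * ((2 * m + 1 : ℕ) : ℤ) →
      (g ^ i)⁻¹ * g ^ j ∈ S ^ (8 * (2 * m + 1)) := by
    intro i j h
    refine hS.mono ?_ (hdist i j)
    rw [abs_le] at h
    omega
  rcases h2 with h2 | h2 | h2
  · have h3 := hfin 0 1 h2
    rw [zpow_zero, inv_one, one_mul, zpow_one] at h3
    have h4 := mem_pow_add h3 h3
    rw [← pow_two] at h4
    exact hS.mono (by omega) h4
  · have h3 := hfin 1 2 h2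
    have e : (g ^ (1 : ℤ))⁻¹ * g ^ (2 : ℤ) = g := by
      rw [← zpow_neg, ← zpow_add]
      norm_num
    rw [e] at h3
    have h4 := mem_pow_add h3 h3
    rw [← pow_two] at h4
    exact hS.mono (by omega) h4
  · have h3 := hfin 0 2 h2
    rw [zpow_zero, inv_one, one_mul] at h3
    have h4 : g ^ (2 : ℕ) = g ^ (2 : ℤ) := by norm_cast
    rw [h4]
    exact hS.mono (by omega) h3

end Vale.Agent.P151.R3.H17
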