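import Mathlib

/-!
P151, route R3: packing form of the LIN LEMMA (279) and the elliptic lemma.

`S` is a symmetric subset of a group with `1 ∈ S`; `SSep S F` says that the finite family `F` is
`S`-separated.  If `S ^ (3 m + 2)` contains no separated family four times as large as one in
`S ^ m`, every element of `S ^ j` is within `2 m + 1` of any long geodesic through `1`.
-/

universe u

open Pointwise

namespace Vale.Agent.P151.R3.H17

variable {G : Type u} [Group G]

/-- `F` is `S`-separated. -/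
def SSep (S : Set G) (F : Finset G) : Prop := ∀ x ∈ F, ∀ y ∈ F, x ≠ y → x⁻¹ * y ∉ S

/-- symmetric sets containing `1` -/
structure SymOne (S : Set G) : Prop where
  one : (1 : G) ∈ S
  inv : ∀ x ∈ S, x⁻¹ ∈ S

theorem SymOne.mono {S : Set G} (h : SymOne S) {a b : ℕ} (hab : a ≤ b) : S ^ a ⊆ S ^ b :=
  Set.pow_subset_pow_right h.one hab

theorem mem_pow_add {S : Set G} {a b : ℕ} {x y : G} (hx : x ∈ S ^ a) (hy : y ∈ S ^ b) :
    x * y ∈ S ^ (a + b) := by
  rw [pow_add]
  exact Set.mul_mem_mul hx hy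

theorem SymOne.inv_pow {S : Set G} (h : SymOne S) {a : ℕ} {x : G} (hx : x ∈ S ^ a) :
    x⁻¹ ∈ S ^ a := by
  induction a generalizing x with
  | zero =>
    rw [pow_zero, Set.mem_one] at hx ⊢
    rw [hx, inv_one]
  | succ a ih =>
    rw [pow_succ] at hx
    obtain ⟨y, hy, z, hz, rfl⟩ := hx
    have h1 : z⁻¹ * y⁻¹ ∈ S ^ (1 + a) := mem_pow_add (by rw [pow_one]; exact h.inv z hz) (ih hy)
    rw [add_comm] at h1
    simpa using h1

/-- the closure of `S` is the union of the powers -/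
theorem SymOne.mem_closure {S : Set G} (h : SymOne S) {x : G} (hx : x ∈ Subgroup.closure S) :
    ∃ m, x ∈ S ^ m := by
  induction hx using Subgroup.closure_induction with
  | mem x hx => exact ⟨1, by rwa [pow_one]⟩
  | one => exact ⟨0, by rw [pow_zero]; exact Set.mem_one.2 rfl⟩
  | mul x y _ _ hx hy =>
    obtain ⟨a, ha⟩ := hx
    obtain ⟨b, hb⟩ := hy
    exact ⟨a + b, mem_pow_add ha hb⟩
  | inv x _ hx =>
    obtain ⟨a, ha⟩ := hx
    exact ⟨a, h.inv_pow ha⟩

theorem pow_subset_closure (S : Set G) (m : ℕ) : S ^ m ⊆ (Subgroup.closure S : Set G) := by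
  induction m with
  | zero =>
    intro x hx
    rw [pow_zero, Set.mem_one] at hx
    rw [hx]
    exact one_mem _
  | succ m ih =>
    intro x hx
    rw [pow_succ] at hx
    obtain ⟨y, hy, z, hz, rfl⟩ := hx
    exact mul_mem (ih hy) (Subgroup.subset_closure hz)

/-- A geodesic of length `2 M` centred at `1`. -/
structure Geo (S : Set G) (M : ℕ) (γ : ℕ → G) : Prop where
  mid : γ M = 1
  le : ∀ i j, i ≤ j → j ≤ 2 * M → (γ i)⁻¹ * γ j ∈ S ^ (j - i)
  ge : ∀ i j m, i ≤ j → j ≤ 2 * M → (γ i)⁻¹ * γ j ∈ S ^ m → j - i ≤ m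

/-- symmetric form of `le` -/
theorem Geo.le' {S : Set G} (hS : SymOne S) {M : ℕ} {γ : ℕ → G} (g : Geo S M γ) {i j m : ℕ}
    (hi : i ≤ 2 * M) (hj : j ≤ 2 * M) (h : j - i ≤ m) (h' : i - j ≤ m) :
    (γ i)⁻¹ * γ j ∈ S ^ m := by
  rcases le_total i j with hij | hij
  · exact hS.mono h (g.le i j hij hj)
  · have h1 := hS.inv_pow (g.le j i hij hi)
    rw [mul_inv_rev, inv_inv] at h1
    exact hS.mono h' h1

/-- symmetric form of `ge` -/
theorem Geo.ge' {S : Set G} (hS : SymOne S) {M : ℕ} {γ : ℕ → G} (g : Geo S M γ) {i j m : ℕ}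
    (hi : i ≤ 2 * M) (hj : j ≤ 2 * M) (h : (γ i)⁻¹ * γ j ∈ S ^ m) : j - i ≤ m ∧ i - j ≤ m := by
  rcases le_total i j with hij | hij
  · exact ⟨g.ge i j m hij hj h, by omega⟩
  · have h1 := hS.inv_pow h
    rw [mul_inv_rev, inv_inv] at h1
    exact ⟨by omega, g.ge j i m hij hi h1⟩

/-- If the powers of `S` do not stabilise there are geodesics of every length. -/
theorem exists_geo {S : Set G} (hS : SymOne S) (hu : ∀ m, ¬ (S ^ (m + 1) ⊆ S ^ m)) (M : ℕ)
    (hM : 1 ≤ M) : ∃ γ, Geo S M γ := by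
  obtain ⟨z, hz, hz'⟩ := Set.not_subset.1 (hu (2 * M - 1))
  rw [show 2 * M - 1 + 1 = 2 * M by omega] at hz
  -- a word
  have hword : ∀ n : ℕ, ∀ z ∈ S ^ n, ∃ δ : ℕ → G, δ 0 = 1 ∧ δ n = z ∧
      ∀ i < n, (δ i)⁻¹ * δ (i + 1) ∈ S := by
    intro n
    induction n with
    | zero =>
      intro z hz
      rw [pow_zero, Set.mem_one] at hz
      exact ⟨fun _ => 1, rfl, hz.symm, fun i hi => absurd hi (Nat.not_lt_zero i)⟩
    | succ n ih =>
      intro z hz
      rw [pow_succ] at hz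
      obtain ⟨y, hy, w, hw, rfl⟩ := hz
      obtain ⟨δ, h0, hn, hstep⟩ := ih y hy
      refine ⟨fun i => if i ≤ n then δ i else y * w, ?_, ?_, ?_⟩
      · simp [h0]
      · simp
      · intro i hi
        rcases Nat.lt_succ_iff_lt_or_eq.1 hi with h | h
        · have h1 : i ≤ n := by omega
          have h2 : i + 1 ≤ n := by omega
          simp only [h1, h2, if_true]
          exact hstep i h
        · subst h
          have h2 : ¬ (i + 1 ≤ i) := by omega
          simp only [le_refl, if_true, h2, if_false, hn]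
          simpa using hw
  obtain ⟨δ, h0, hn, hstep⟩ := hword (2 * M) z hz
  have hle : ∀ i j, i ≤ j → j ≤ 2 * M → (δ i)⁻¹ * δ j ∈ S ^ (j - i) := by
    intro i j hij
    induction j, hij using Nat.le_induction with
    | base =>
      intro _
      rw [inv_mul_cancel, Nat.sub_self, pow_zero]
      exact Set.mem_one.2 rfl
    | succ j hij ih =>
      intro hj
      have h1 := ih (by omega)
      have h2 := hstep j (by omega)
      have h3 : (δ i)⁻¹ * δ (j + 1) = ((δ i)⁻¹ * δ j) * ((δ j)⁻¹ * δ (j + 1)) := by group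
      rw [h3, show j + 1 - i = (j - i) + 1 by omega]
      exact mem_pow_add h1 (by rwa [pow_one])
  refine ⟨fun i => (δ M)⁻¹ * δ i, by simp, ?_, ?_⟩
  · intro i j hij hj
    have h1 : ((δ M)⁻¹ * δ i)⁻¹ * ((δ M)⁻¹ * δ j) = (δ i)⁻¹ * δ j := by group
    rw [h1]
    exact hle i j hij hj
  · intro i j m hij hj h
    have h1 : ((δ M)⁻¹ * δ i)⁻¹ * ((δ M)⁻¹ * δ j) = (δ i)⁻¹ * δ j := by group
    rw [h1] at h
    by_contra hcon
    push Not at hcon
    apply hz'
    have h2 : z = ((δ 0)⁻¹ * δ i) * ((δ i)⁻¹ * δ j) * ((δ j)⁻¹ * δ (2 * M)) := by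
      rw [h0, hn]; group
    rw [h2]
    have h3 := mem_pow_add (mem_pow_add (hle 0 i (Nat.zero_le _) (by omega)) h)
      (hle j (2 * M) hj le_rfl)
    exact hS.mono (by omega) h3

/-- Four far apart centres give a large separated family. -/
theorem four_centres {S : Set G} (hS : SymOne S) {m n : ℕ} (F : Finset G) (hF : ∀ x ∈ F, x ∈ S ^ m)
    (hs : SSep S F) (cs : Fin 4 → G) (hc : ∀ i j, i ≠ j → (cs i)⁻¹ * cs j ∉ S ^ (2 * m + 1))
    (hn : ∀ i, cs i ∈ S ^ n) :
    ∃ F' : Finset G, (∀ x ∈ F', x ∈ S ^ (n + m)) ∧ SSep S F' ∧ F'.card = 4 * F.card := by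
  classical
  have hcross : ∀ i j, i ≠ j → ∀ x ∈ F, ∀ y ∈ F, (cs i * x)⁻¹ * (cs j * y) ∉ S := by
    intro i j hij x hx y hy h
    apply hc i j hij
    have h1 : (cs i)⁻¹ * cs j = x * ((cs i * x)⁻¹ * (cs j * y)) * y⁻¹ := by group
    rw [h1]
    have h2 := mem_pow_add (mem_pow_add (hF x hx) (by rwa [pow_one] : _ ∈ S ^ 1))
      (hS.inv_pow (hF y hy))
    rwa [show m + 1 + m = 2 * m + 1 by ring] at h2
  have hinj : Set.InjOn (fun p : Fin 4 × G => cs p.1 * p.2)
      ((Finset.univ ×ˢ F : Finset (Fin 4 × G)) : Set (Fin 4 × G)) := by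
    rintro ⟨i, x⟩ hx ⟨j, y⟩ hy h
    have hx' : x ∈ F := by simpa using hx
    have hy' : y ∈ F := by simpa using hy
    dsimp only at h
    by_cases hij : i = j
    · subst hij
      have := mul_left_cancel h
      rw [this]
    · exact absurd (by rw [h, inv_mul_cancel]; exact hS.one) (hcross i j hij x hx' y hy')
  refine ⟨(Finset.univ ×ˢ F).image (fun p : Fin 4 × G => cs p.1 * p.2), ?_, ?_, ?_⟩
  · intro z hz
    rw [Finset.mem_image] at hz
    obtain ⟨⟨i, x⟩, hx, rfl⟩ := hz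
    have hx' : x ∈ F := by simpa using hx
    exact mem_pow_add (hn i) (hF x hx')
  · intro z hz w hw hzw
    rw [Finset.mem_image] at hz hw
    obtain ⟨⟨i, x⟩, hx, rfl⟩ := hz
    obtain ⟨⟨j, y⟩, hy, rfl⟩ := hw
    have hx' : x ∈ F := by simpa using hx
    have hy' : y ∈ F := by simpa using hy
    by_cases hij : i = j
    · subst hij
      have h1 : (cs i * x)⁻¹ * (cs i * y) = x⁻¹ * y := by group
      dsimp only
      rw [h1]
      refine hs x hx' y hy' ?_
      rintro rfl
      exact hzw rfl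
    · exact hcross i j hij x hx' y hy'
  · rw [Finset.card_image_of_injOn hinj, Finset.card_product, Finset.card_univ, Fintype.card_fin]

/-- **LIN LEMMA, packing form.** -/
theorem lin {S : Set G} (hS : SymOne S) {m : ℕ} (F : Finset G) (hF : ∀ x ∈ F, x ∈ S ^ m)
    (hs : SSep S F)
    (hF4 : ∀ F' : Finset G, (∀ x ∈ F', x ∈ S ^ (3 * m + 2)) → SSep S F' → F'.card < 4 * F.card)
    {M : ℕ} {γ : ℕ → G} (g : Geo S M γ) (j : ℕ) (hj : j + 4 * m + 2 ≤ M) (z : G)
    (hz : z ∈ S ^ j) : ∃ k ≤ 2 * M, (γ k)⁻¹ * z ∈ S ^ (2 * m + 1) := by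
  -- the local step
  have step : ∀ k y, 2 * m + 2 ≤ k → k + (2 * m + 2) ≤ 2 * M → (γ k)⁻¹ * y ∈ S ^ (2 * m + 2) →
      ∃ k' ≤ 2 * M, (γ k')⁻¹ * y ∈ S ^ (2 * m + 1) := by
    intro k y hk1 hk2 hy
    by_contra hcon
    push Not at hcon
    obtain ⟨F', h1, h2, h3⟩ := four_centres hS (n := 2 * m + 2) F hF hs
      (![(γ k)⁻¹ * γ (k - (2 * m + 2)), (γ k)⁻¹ * γ k, (γ k)⁻¹ * γ (k + (2 * m + 2)), (γ k)⁻¹ * y])
      (by
        have e : ∀ a b : G, ((γ k)⁻¹ * a)⁻¹ * ((γ k)⁻¹ * b) = a⁻¹ * b := fun a b => by group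
        have hsy : ∀ a b : G, a⁻¹ * b ∉ S ^ (2 * m + 1) → b⁻¹ * a ∉ S ^ (2 * m + 1) := by
          intro a b h h'
          apply h
          have := hS.inv_pow h'
          rwa [mul_inv_rev, inv_inv] at this
        have a1 : (γ (k - (2 * m + 2)))⁻¹ * γ k ∉ S ^ (2 * m + 1) := fun h => by
          have := (g.ge' hS (by omega) (by omega) h).1
          omega
        have a2 : (γ (k - (2 * m + 2)))⁻¹ * γ (k + (2 * m + 2)) ∉ S ^ (2 * m + 1) := fun h => by
          have := (g.ge' hS (by omega) (by omega) h).1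
          omega
        have a3 : (γ k)⁻¹ * γ (k + (2 * m + 2)) ∉ S ^ (2 * m + 1) := fun h => by
          have := (g.ge' hS (by omega) (by omega) h).1
          omega
        have b1 := hcon (k - (2 * m + 2)) (by omega)
        have b2 := hcon k (by omega)
        have b3 := hcon (k + (2 * m + 2)) (by omega)
        intro i j hij
        fin_cases i <;> fin_cases j <;> first | exact absurd rfl hij | skip
        all_goals simp only [Fin.zero_eta, Fin.mk_one, Fin.reduceFinMk, Matrix.cons_val]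
        all_goals rw [e]
        all_goals first | assumption | exact hsy _ _ (by assumption))
      (by
        intro i
        fin_cases i
        · exact g.le' hS (by omega) (by omega) (by omega) (by omega)
        · show (γ k)⁻¹ * γ k ∈ _
          exact g.le' hS (by omega) (by omega) (by omega) (by omega)
        · exact g.le' hS (by omega) (by omega) (by omega) (by omega)
        · exact hy)
    have h4 := hF4 F' (fun x hx => by
      have := h1 x hx
      rwa [show 2 * m + 2 + m = 3 * m + 2 by ring] at this) h2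
    omega
  induction j generalizing z with
  | zero =>
    rw [pow_zero, Set.mem_one] at hz
    refine ⟨M, by omega, ?_⟩
    rw [g.mid, hz, inv_one, mul_one]
    exact hS.mono (Nat.zero_le _) (by rw [pow_zero]; exact Set.mem_one.2 rfl)
  | succ j ih =>
    rw [pow_succ] at hz
    obtain ⟨y, hy, w, hw, rfl⟩ := hz
    obtain ⟨k, hk, hk'⟩ := ih (by omega) y hy
    have h1 : (γ M)⁻¹ * γ k ∈ S ^ (j + (2 * m + 1)) := by
      have h2 : (γ M)⁻¹ * γ k = y * ((γ k)⁻¹ * y)⁻¹ := by rw [g.mid]; group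
      rw [h2]
      exact mem_pow_add hy (hS.inv_pow hk')
    have h3 := g.ge' hS (by omega) hk h1
    refine step k (y * w) (by omega) (by omega) ?_
    have h4 : (γ k)⁻¹ * (y * w) = ((γ k)⁻¹ * y) * w := by group
    rw [h4, show 2 * m + 2 = (2 * m + 1) + 1 by ring]
    exact mem_pow_add hk' (by rwa [pow_one])

/-- A linear bound for separated families gives the hypothesis of `lin`. -/
theorem exists_four {S : Set G} (C : ℝ)
    (hC : ∀ (m : ℕ) (F : Finset G), (∀ x ∈ F, x ∈ S ^ m) → SSep S F → (F.card : ℝ) ≤ C * (m + 1)) :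
    ∃ (m : ℕ) (F : Finset G), (∀ x ∈ F, x ∈ S ^ m) ∧ SSep S F ∧
      ∀ F' : Finset G, (∀ x ∈ F', x ∈ S ^ (3 * m + 2)) → SSep S F' → F'.card < 4 * F.card := by
  by_contra hcon
  push Not at hcon
  have key : ∀ i : ℕ, ∃ F : Finset G, (∀ x ∈ F, x ∈ S ^ (3 ^ i - 1)) ∧ SSep S F ∧
      4 ^ i ≤ F.card := by
    intro i
    induction i with
    | zero =>
      refine ⟨{1}, ?_, ?_, by simp⟩
      · intro x hx
        rw [Finset.mem_singleton] at hx
        rw [hx]
        simp
      · intro x hx y hy hxy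
        rw [Finset.mem_singleton] at hx hy
        exact absurd (hx.trans hy.symm) hxy
    | succ i ih =>
      obtain ⟨F, h1, h2, h3⟩ := ih
      obtain ⟨F', h4, h5, h6⟩ := hcon _ F h1 h2
      refine ⟨F', ?_, h5, ?_⟩
      · have h7 : 3 * (3 ^ i - 1) + 2 = 3 ^ (i + 1) - 1 := by
          have : 1 ≤ 3 ^ i := Nat.one_le_pow _ _ (by norm_num)
          rw [pow_succ]
          omega
        rwa [h7] at h4
      · rw [pow_succ]
        omega
  have hlim : ∃ i : ℕ, C * 3 ^ i < 4 ^ i := by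
    have h := tendsto_pow_atTop_nhds_zero_of_lt_one (r := (3 / 4 : ℝ)) (by norm_num) (by norm_num)
    have h2 := h.const_mul (|C| + 1)
    rw [mul_zero] at h2
    obtain ⟨i, hi⟩ := (h2.eventually_lt_const (show (0 : ℝ) < 1 by norm_num)).exists
    refine ⟨i, ?_⟩
    have hp : (0 : ℝ) < 4 ^ i := by positivity
    have hp3 : (0 : ℝ) < 3 ^ i := by positivity
    rw [div_pow, ← mul_div_assoc, div_lt_one hp] at hi
    have := le_abs_self C
    nlinarith
  obtain ⟨i, hi⟩ := hlim
  obtain ⟨F, h1, h2, h3⟩ := key i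
  have h4 := hC _ F h1 h2
  have h5 : 1 ≤ 3 ^ i := Nat.one_le_pow _ _ (by norm_num)
  rw [Nat.cast_sub h5] at h4
  push_cast at h4
  have h6 : (4 : ℝ) ^ i ≤ F.card := by exact_mod_cast h3
  have h7 : C * ((3 : ℝ) ^ i - 1 + 1) = C * 3 ^ i := by ring
  linarith

end Vale.Agent.P151.R3.H17
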