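import Vale.Agent.P151.R3.H822.VGap
import Vale.Agent.P151.R3.H17.Ell

/-!
P151, route R3, block V in the single level form (`Data1`), after 822's `VBase`, `VCount`.

`stmt1`: squares of elements which act trivially on `W` and all of whose powers are short have
uniformly short conjugates; and `dim W ≤ 2`.
-/

universe u w

open Filter Topology Pointwise

namespace Vale.Agent.P151.R3.H17

open Vale.Agent.P151.R3.V (NLen)

variable {G : Type u} [Group G]

/-- What block V consumes, single level.  `(π, c)` = the affine isometric action of the internal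
group on the (finite-dimensional) space `W`. -/
structure Data1 (L : NLen G) (W : Type w) [NormedAddCommGroup W] [InnerProductSpace ℝ W]
    (π : G →* (W ≃ₗᵢ[ℝ] W)) (c : G → W) (C : ℝ) : Prop where
  /-- volume of the window: quadratic growth -/
  pack : ∀ (A : ℕ) (F : Finset G), (∀ x ∈ F, L.ℓ x ≤ A) → L.Sep F → (F.card : ℝ) ≤ C * (A + 1) ^ 2
  /-- Lipschitz at scale one -/
  c_le : ∀ g, ‖c g‖ ≤ C * (1 + L.ℓ g)
  /-- cocycle -/
  c_mul : ∀ g h, c (g * h) = c g + π g (c h)
  /-- every direction of `W` is visible at bounded distance -/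
  vis : ∃ (J : ℕ) (e : ℝ), 0 < e ∧ ∀ u : W, ‖u‖ = 1 → ∃ g : G, L.ℓ g ≤ J ∧ e ≤ inner ℝ (c g) u

variable {L : NLen G} {W : Type w} [NormedAddCommGroup W] [InnerProductSpace ℝ W]
  {π : G →* (W ≃ₗᵢ[ℝ] W)} {c : G → W} {C : ℝ}

theorem Data1.C_one (h : Data1 L W π c C) : 1 ≤ C := by
  have h1 := h.pack 0 {1} (by simp [L.one]) (by
    intro x hx y hy hxy
    rw [Finset.mem_singleton] at hx hy
    exact absurd (hx.trans hy.symm) hxy)
  simpa using h1

theorem Data1.c_one (h : Data1 L W π c C) : c 1 = 0 := by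
  have h1 := h.c_mul 1 1
  rw [mul_one, map_one] at h1
  have h2 : (1 : W ≃ₗᵢ[ℝ] W) (c 1) = c 1 := rfl
  rw [h2] at h1
  simpa using h1

theorem Data1.c_inv (h : Data1 L W π c C) (g : G) : c g⁻¹ = - π g⁻¹ (c g) := by
  have h1 := h.c_mul g⁻¹ g
  rw [inv_mul_cancel, h.c_one] at h1
  exact eq_neg_of_add_eq_zero_left h1.symm

theorem Data1.c_inv_mul (h : Data1 L W π c C) (g k : G) : ‖c (g⁻¹ * k)‖ = ‖c k - c g‖ := by
  have h3 : c (g⁻¹ * k) = π g⁻¹ (c k - c g) := by
    rw [h.c_mul, map_sub, h.c_inv]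
    abel
  rw [h3, LinearIsometryEquiv.norm_map]

theorem Data1.sep (h : Data1 L W π c C) {g k : G} (hs : 5 * C < ‖c k - c g‖) :
    4 < L.ℓ (g⁻¹ * k) := by
  have h1 := h.c_le (g⁻¹ * k)
  rw [h.c_inv_mul] at h1
  by_contra hcon
  push Not at hcon
  have h3 : (L.ℓ (g⁻¹ * k) : ℝ) ≤ 4 := by exact_mod_cast hcon
  have hC := h.C_one
  nlinarith

theorem Data1.norm_le (h : Data1 L W π c C) {g : G} {B : ℕ} (hB : L.ℓ g ≤ B) :
    ‖c g‖ ≤ C * (1 + B) := by
  refine (h.c_le g).trans ?_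
  have h1 : (L.ℓ g : ℝ) ≤ B := by exact_mod_cast hB
  nlinarith [h.C_one]

/-- the greedy walk -/
theorem Data1.fill (h : Data1 L W π c C) : ∃ (J : ℕ) (e M : ℝ), 0 < e ∧ 0 < M ∧
    ∀ (n : ℕ) (y : W), ‖y‖ ≤ M + n * e → ∃ g : G, L.ℓ g ≤ J * n ∧ ‖c g - y‖ ≤ M := by
  obtain ⟨J, e, he, hvis⟩ := h.vis
  have hC := h.C_one
  obtain ⟨B, hB⟩ : ∃ B : ℝ, B = C * (1 + J) := ⟨_, rfl⟩
  have hB0 : 0 < B := by
    rw [hB]
    positivity
  obtain ⟨M, hM⟩ : ∃ M : ℝ, M = B ^ 2 / e + e := ⟨_, rfl⟩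
  have hM0 : 0 < M := by
    rw [hM]
    positivity
  refine ⟨J, e / 2, M, by positivity, hM0, fun n => ?_⟩
  induction n with
  | zero =>
    intro y hy
    refine ⟨1, ?_, ?_⟩
    · rw [mul_zero, L.one]
    · rw [h.c_one, zero_sub, norm_neg]
      simpa using hy
  | succ n ih =>
    intro y hy
    by_cases hyM : ‖y‖ ≤ M
    · refine ⟨1, ?_, ?_⟩
      · rw [L.one]
        exact Nat.zero_le _
      · rw [h.c_one, zero_sub, norm_neg]
        exact hyM
    · push Not at hyM
      have hd : 0 < ‖y‖ := hM0.trans hyM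
      obtain ⟨g, hgJ, hg⟩ := hvis ((‖y‖⁻¹ : ℝ) • y) (by
        rw [norm_smul, norm_inv, norm_norm, inv_mul_cancel₀ hd.ne'])
      have hgB : ‖c g‖ ≤ B := by
        rw [hB]
        exact h.norm_le hgJ
      have h1 : e * ‖y‖ ≤ inner ℝ (c g) y := by
        rw [real_inner_smul_right, inv_mul_eq_div, le_div_iff₀ hd] at hg
        exact hg
      have h2 : ‖y - c g‖ ≤ ‖y‖ - e / 2 := by
        have h3 : ‖y - c g‖ ^ 2 = ‖y‖ ^ 2 - 2 * inner ℝ (c g) y + ‖c g‖ ^ 2 := by
          rw [norm_sub_sq_real, real_inner_comm]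
        have h4 : B ^ 2 ≤ e * ‖y‖ := by
          have h5 : B ^ 2 / e ≤ ‖y‖ := by
            rw [hM] at hyM
            linarith
          rw [div_le_iff₀ he] at h5
          linarith
        have h6 : e ≤ ‖y‖ := by
          have h7 : 0 ≤ B ^ 2 / e := by positivity
          rw [hM] at hyM
          linarith
        have h8 : ‖c g‖ ^ 2 ≤ B ^ 2 := pow_le_pow_left₀ (norm_nonneg _) hgB 2
        have h9 : ‖y - c g‖ ^ 2 ≤ (‖y‖ - e / 2) ^ 2 := by
          rw [h3]
          nlinarith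
        exact le_of_sq_le_sq h9 (by linarith)
      obtain ⟨g', hg'J, hg'⟩ := ih (π g⁻¹ (y - c g)) (by
        rw [LinearIsometryEquiv.norm_map]
        push_cast at hy
        linarith)
      refine ⟨g * g', ?_, ?_⟩
      · have h3 := L.mul g g'
        rw [Nat.mul_succ]
        omega
      · have h3 : c (g * g') - y = π g (c g' - π g⁻¹ (y - c g)) := by
          rw [h.c_mul, map_sub]
          have h4 : π g (π g⁻¹ (y - c g)) = y - c g := by
            show (π g * π g⁻¹) (y - c g) = _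
            rw [← map_mul, mul_inv_cancel, map_one]
            rfl
          rw [h4]
          abel
        rw [h3, LinearIsometryEquiv.norm_map]
        exact hg'

theorem Data1.fill' (h : Data1 L W π c C) : ∃ D : ℕ, 0 < D ∧
    ∀ (n : ℕ) (y : W), ‖y‖ ≤ n → ∃ g : G, L.ℓ g ≤ D * n ∧ ‖c g - y‖ ≤ D := by
  obtain ⟨J, e, M, he, hM, hf⟩ := h.fill
  obtain ⟨q, hq⟩ : ∃ q : ℕ, q = ⌈e⁻¹⌉₊ := ⟨_, rfl⟩
  have hq1 : 1 ≤ q * e := by
    have h1 : e⁻¹ ≤ q := by
      rw [hq]
      exact Nat.le_ceil _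
    have h2 := mul_le_mul_of_nonneg_right h1 he.le
    rwa [inv_mul_cancel₀ he.ne'] at h2
  refine ⟨J * q + ⌈M⌉₊ + 1, Nat.succ_pos _, fun n y hy => ?_⟩
  obtain ⟨g, hg1, hg2⟩ := hf (q * n) y (by
    push_cast
    have h3 : (0 : ℝ) ≤ n := Nat.cast_nonneg n
    nlinarith)
  refine ⟨g, hg1.trans ?_, hg2.trans ?_⟩
  · rw [← mul_assoc]
    exact Nat.mul_le_mul_right _ (by omega)
  · have h4 := Nat.le_ceil M
    push_cast
    have h5 : (0 : ℝ) ≤ (J : ℝ) * q := by positivity
    linarith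

/-- A separated family of polynomial size in directions of an orthonormal family. -/
theorem Data1.family (h : Data1 L W π c C) {m : ℕ} (u : Fin m → W)
    (hu : Orthonormal ℝ u) : ∃ D : ℕ, ∀ R : ℕ, ∃ g : (Fin m → Fin R) → G,
      (∀ a, L.ℓ (g a) ≤ D * R) ∧ ∀ a b, a ≠ b → 5 * C < ‖c (g b) - c (g a)‖ := by
  obtain ⟨D, hD0, hD⟩ := h.fill'
  obtain ⟨s, hs⟩ : ∃ s : ℕ, s = ⌈5 * C⌉₊ + 2 * D + 1 := ⟨_, rfl⟩
  have hsC : 5 * C + 2 * D < s := by
    have h1 := Nat.le_ceil (5 * C)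
    rw [hs]
    push_cast
    linarith
  refine ⟨D * (m * s), fun R => ?_⟩
  let y : (Fin m → Fin R) → W := fun a => ∑ i, ((s * (a i : ℕ) : ℕ) : ℝ) • u i
  have hy : ∀ a, ‖y a‖ ≤ ((m * s * R : ℕ) : ℝ) := by
    intro a
    refine (norm_sum_le _ _).trans ?_
    have h1 : ∀ i ∈ (Finset.univ : Finset (Fin m)), ‖((s * (a i : ℕ) : ℕ) : ℝ) • u i‖ ≤
        ((s * R : ℕ) : ℝ) := by
      intro i _
      rw [norm_smul, hu.1 i, mul_one, Real.norm_natCast]
      exact_mod_cast Nat.mul_le_mul_left s (a i).2.le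
    refine (Finset.sum_le_card_nsmul _ _ _ h1).trans (le_of_eq ?_)
    rw [Finset.card_univ, Fintype.card_fin, nsmul_eq_mul]
    push_cast
    ring
  choose g hg1 hg2 using fun a => hD (m * s * R) (y a) (hy a)
  refine ⟨g, fun a => (hg1 a).trans (le_of_eq (by ring)), fun a b hab => ?_⟩
  -- the distance of the targets
  have h1 : (s : ℝ) ≤ ‖y b - y a‖ := by
    obtain ⟨i, hi⟩ := Function.ne_iff.1 hab
    have h2 : inner ℝ (u i) (y b - y a) = (s : ℝ) * ((b i : ℕ) - (a i : ℕ) : ℝ) := by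
      have h3 : ∀ a : Fin m → Fin R, inner ℝ (u i) (y a) = ((s * (a i : ℕ) : ℕ) : ℝ) := by
        intro a
        exact hu.inner_right_fintype (fun i => ((s * (a i : ℕ) : ℕ) : ℝ)) i
      rw [inner_sub_right, h3, h3]
      push_cast
      ring
    have h3 : |inner ℝ (u i) (y b - y a)| ≤ ‖y b - y a‖ := by
      have := abs_real_inner_le_norm (u i) (y b - y a)
      rwa [hu.1 i, one_mul] at this
    refine le_trans ?_ h3
    rw [h2, abs_mul, Nat.abs_cast]
    have h4 : (1 : ℝ) ≤ |((b i : ℕ) : ℝ) - ((a i : ℕ) : ℝ)| := by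
      have h5 : ((b i : ℕ) : ℤ) - ((a i : ℕ) : ℤ) ≠ 0 := by
        intro h6
        apply hi
        apply Fin.ext
        omega
      have h7 := Int.one_le_abs h5
      have h8 : ((1 : ℤ) : ℝ) ≤ ((|((b i : ℕ) : ℤ) - ((a i : ℕ) : ℤ)| : ℤ) : ℝ) := by
        exact_mod_cast h7
      push_cast at h8
      exact h8
    nlinarith [Nat.cast_nonneg (α := ℝ) s]
  have h2 : ‖y b - y a‖ ≤ ‖c (g b) - c (g a)‖ + (D + D) := by
    have h3 : y b - y a = (c (g b) - c (g a)) - ((c (g b) - y b) - (c (g a) - y a)) := by abel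
    rw [h3]
    refine (norm_sub_le _ _).trans (add_le_add le_rfl ?_)
    exact (norm_sub_le _ _).trans (add_le_add (hg2 b) (hg2 a))
  linarith

/-- The elements of `G` which act trivially on `W`. -/
def Data1.K (h : Data1 L W π c C) : Subgroup G where
  carrier := {s | c s = 0 ∧ π s = 1}
  one_mem' := ⟨h.c_one, map_one π⟩
  mul_mem' := by
    rintro a b ⟨ha, ha'⟩ ⟨hb, hb'⟩
    refine ⟨?_, ?_⟩
    · rw [h.c_mul, ha, hb, map_zero, add_zero]
    · rw [map_mul, ha', hb', mul_one]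
  inv_mem' := by
    rintro a ⟨ha, ha'⟩
    refine ⟨?_, ?_⟩
    · rw [h.c_inv, ha, map_zero, neg_zero]
    · rw [map_inv, ha', inv_one]

theorem Data1.mem_K (h : Data1 L W π c C) {s : G} : s ∈ h.K ↔ c s = 0 ∧ π s = 1 := Iff.rfl

theorem Data1.K_normal (h : Data1 L W π c C) {s : G} (hs : s ∈ h.K) (g : G) :
    g * s * g⁻¹ ∈ h.K := by
  obtain ⟨h1, h2⟩ := hs
  refine ⟨?_, ?_⟩
  · rw [h.c_mul, h.c_mul, h1, map_zero, add_zero, map_mul, h2, mul_one, h.c_inv, map_neg]
    have h4 : π g (π g⁻¹ (c g)) = c g := by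
      show (π g * π g⁻¹) (c g) = _
      rw [← map_mul, mul_inv_cancel, map_one]
      rfl
    rw [h4, add_neg_cancel]
  · rw [map_mul, map_mul, h2, mul_one, map_inv, mul_inv_cancel]

/-- Multiplying by an element acting trivially does not change the cocycle. -/
theorem Data1.c_mul_K (h : Data1 L W π c C) {s : G} (hs : s ∈ h.K) (g : G) :
    c (g * s) = c g := by
  rw [h.c_mul, hs.1, map_zero, add_zero]

/-- **Fibre counts.** -/
theorem Data1.count (h : Data1 L W π c C) {m : ℕ} (u : Fin m → W)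
    (hu : Orthonormal ℝ u) : ∃ D : ℝ, 0 ≤ D ∧ ∀ (A : ℕ) (F : Finset G),
      (∀ x ∈ F, x ∈ h.K ∧ L.ℓ x ≤ A) → L.Sep F →
      (F.card : ℝ) * (A + 1) ^ m ≤ D * (A + 1) ^ 2 := by
  classical
  obtain ⟨D, hD⟩ := h.family u hu
  have hC := h.C_one
  refine ⟨C * (D + 1) ^ 2, by positivity, fun A F hF hsep => ?_⟩
  obtain ⟨g, hg1, hg2⟩ := hD (A + 1)
  have hpair : ∀ a b : Fin m → Fin (A + 1), ∀ x ∈ F, ∀ y ∈ F, (a ≠ b ∨ x ≠ y) →
      4 < L.ℓ ((g a * x)⁻¹ * (g b * y)) := by
    intro a b x hx y hy hne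
    by_cases h1 : a = b
    · subst h1
      have h2 : x ≠ y := by
        rcases hne with h2 | h2
        · exact absurd rfl h2
        · exact h2
      have h3 : (g a * x)⁻¹ * (g a * y) = x⁻¹ * y := by group
      rw [h3]
      exact hsep x hx y hy h2
    · refine h.sep ?_
      rw [h.c_mul_K (hF y hy).1, h.c_mul_K (hF x hx).1]
      exact hg2 _ _ h1
  have hinj : Set.InjOn (fun p : (Fin m → Fin (A + 1)) × G => g p.1 * p.2)
      ((Finset.univ ×ˢ F : Finset ((Fin m → Fin (A + 1)) × G)) :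
        Set ((Fin m → Fin (A + 1)) × G)) := by
    rintro ⟨a, x⟩ hx ⟨b, y⟩ hy hab
    have hx' : x ∈ F := by simpa using hx
    have hy' : y ∈ F := by simpa using hy
    dsimp only at hab
    by_contra hne
    have h2 := hpair a b x hx' y hy' (by
      by_contra hno
      push Not at hno
      exact hne (Prod.ext hno.1 hno.2))
    rw [hab, inv_mul_cancel, L.one] at h2
    omega
  have h1 := h.pack (D * (A + 1) + A)
    ((Finset.univ ×ˢ F).image (fun p : (Fin m → Fin (A + 1)) × G => g p.1 * p.2)) (by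
      intro z hz
      rw [Finset.mem_image] at hz
      obtain ⟨⟨a, x⟩, hx, rfl⟩ := hz
      have hx' : x ∈ F := by simpa using hx
      exact (L.mul _ _).trans (add_le_add (hg1 a) (hF x hx').2)) (by
      intro z hz w hw hzw
      rw [Finset.mem_image] at hz hw
      obtain ⟨⟨a, x⟩, hx, rfl⟩ := hz
      obtain ⟨⟨b, y⟩, hy, rfl⟩ := hw
      have hx' : x ∈ F := by simpa using hx
      have hy' : y ∈ F := by simpa using hy
      refine hpair a b x hx' y hy' ?_
      by_contra hno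
      push Not at hno
      apply hzw
      dsimp only
      rw [hno.1, hno.2])
  rw [Finset.card_image_of_injOn hinj, Finset.card_product, Finset.card_univ, Fintype.card_fun,
    Fintype.card_fin, Fintype.card_fin] at h1
  push_cast at h1
  have h2 : (0 : ℝ) ≤ A := Nat.cast_nonneg A
  have h3 : (0 : ℝ) ≤ D := Nat.cast_nonneg D
  calc (F.card : ℝ) * (A + 1) ^ m = (A + 1) ^ m * F.card := by ring
    _ ≤ C * ((D * (A + 1) + A : ℝ) + 1) ^ 2 := h1
    _ = C * (D + 1) ^ 2 * (A + 1) ^ 2 := by ring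

/-- `dim W ≤ 2` -/
theorem Data1.dim_le (h : Data1 L W π c C) {m : ℕ} (u : Fin m → W) (hu : Orthonormal ℝ u) :
    m ≤ 2 := by
  by_contra hcon
  push Not at hcon
  obtain ⟨D, hD0, hD⟩ := h.count u hu
  obtain ⟨A, hA⟩ := exists_nat_gt D
  have h1 := hD A {1} (by
    intro x hx
    rw [Finset.mem_singleton] at hx
    subst hx
    exact ⟨h.K.one_mem, by rw [L.one]; exact Nat.zero_le _⟩) (by
    intro x hx y hy hxy
    rw [Finset.mem_singleton] at hx hy
    exact absurd (hx.trans hy.symm) hxy)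
  rw [Finset.card_singleton, Nat.cast_one, one_mul] at h1
  have h2 : (0 : ℝ) ≤ A := Nat.cast_nonneg A
  have h3 : ((A : ℝ) + 1) ^ 3 ≤ ((A : ℝ) + 1) ^ m := pow_le_pow_right₀ (by linarith) hcon
  have h4 : ((A : ℝ) + 1) ^ 3 = ((A : ℝ) + 1) * ((A : ℝ) + 1) ^ 2 := by ring
  have h5 : (0 : ℝ) < ((A : ℝ) + 1) ^ 2 := by positivity
  have h6 : ((A : ℝ) + 1) * ((A : ℝ) + 1) ^ 2 ≤ D * ((A : ℝ) + 1) ^ 2 := by linarith
  have h7 := le_of_mul_le_mul_right h6 h5
  linarith

/-- linear fibre counts -/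
theorem Data1.count_one [Nontrivial W] (h : Data1 L W π c C) : ∃ D : ℝ, 0 ≤ D ∧
    ∀ (A : ℕ) (F : Finset G), (∀ x ∈ F, x ∈ h.K ∧ L.ℓ x ≤ A) → L.Sep F →
      (F.card : ℝ) ≤ D * (A + 1) := by
  obtain ⟨v, hv⟩ := exists_ne (0 : W)
  have hn : ‖(‖v‖⁻¹ : ℝ) • v‖ = 1 := by
    rw [norm_smul, norm_inv, norm_norm, inv_mul_cancel₀ (norm_ne_zero_iff.2 hv)]
  obtain ⟨D, hD0, hD⟩ := h.count (m := 1) (fun _ => (‖v‖⁻¹ : ℝ) • v) (by
    rw [orthonormal_iff_ite]
    intro i j
    have hij : i = j := Subsingleton.elim i j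
    rw [if_pos hij, real_inner_self_eq_norm_sq, hn, one_pow])
  refine ⟨D, hD0, fun A F hF hs => ?_⟩
  have h1 := hD A F hF hs
  rw [pow_one] at h1
  have h2 : (0 : ℝ) < (A : ℝ) + 1 := by positivity
  have h3 : (F.card : ℝ) * (A + 1) ≤ (D * (A + 1)) * (A + 1) := by
    rw [mul_assoc, ← pow_two]
    exact h1
  exact le_of_mul_le_mul_right h3 h2

/-- **The elliptic step**, purely group theoretic: `K` normal with a linear count of separated
elements. -/
theorem scl (L : NLen G) (K : Subgroup G) (hK : ∀ s ∈ K, ∀ g : G, g * s * g⁻¹ ∈ K) (C : ℝ)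
    (hC : ∀ (A : ℕ) (F : Finset G), (∀ x ∈ F, x ∈ K ∧ L.ℓ x ≤ A) → L.Sep F →
      (F.card : ℝ) ≤ C * (A + 1))
    (hgap : ∃ r : ℕ, 4 ≤ r ∧ Subgroup.closure (L.short K (r + 2)) = Subgroup.closure (L.short K r)) :
    ∃ D : ℕ, ∀ s ∈ K, (∀ j : ℤ, L.ℓ (s ^ j) ≤ 1) → ∀ x, L.ℓ (x⁻¹ * s ^ 2 * x) ≤ D := by
  classical
  obtain ⟨r, hr, hgap⟩ := hgap
  obtain ⟨S, hSdef⟩ : ∃ S, S = L.short K r := ⟨_, rfl⟩
  have hS : SymOne S := by
    rw [hSdef]
    exact ⟨⟨K.one_mem, by rw [L.one]; exact Nat.zero_le _⟩, fun x hx => NLen.short_inv hx⟩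
  have hSK : ∀ m, ∀ x ∈ S ^ m, x ∈ K ∧ L.ℓ x ≤ r * m := by
    intro m
    induction m with
    | zero =>
      intro x hx
      rw [pow_zero, Set.mem_one] at hx
      rw [hx, L.one]
      exact ⟨K.one_mem, Nat.zero_le _⟩
    | succ m ih =>
      intro x hx
      rw [pow_succ] at hx
      obtain ⟨y, hy, z, hz, rfl⟩ := hx
      rw [hSdef] at hz
      have h1 := ih y hy
      refine ⟨K.mul_mem h1.1 hz.1, ?_⟩
      have h2 := L.mul y z
      have h3 := hz.2
      rw [Nat.mul_succ]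
      dsimp only
      omega
  -- normality
  have hN : ∀ x : G, ∀ s ∈ Subgroup.closure S, x⁻¹ * s * x ∈ Subgroup.closure S := by
    have hlet : ∀ p : G, L.ℓ p ≤ 1 → ∀ s ∈ Subgroup.closure S, p⁻¹ * s * p ∈ Subgroup.closure S := by
      intro p hp s hs
      induction hs using Subgroup.closure_induction with
      | mem s hs =>
        have h1 : p⁻¹ * s * p ∈ L.short K (r + 2) := by
          rw [hSdef] at hs
          refine ⟨?_, ?_⟩
          · have := hK s hs.1 p⁻¹
            rwa [inv_inv] at this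
          · have h2 := L.mul (p⁻¹ * s) p
            have h3 := L.mul p⁻¹ s
            rw [L.inv] at h3
            have h4 := hs.2
            omega
        rw [hSdef, ← hgap]
        exact Subgroup.subset_closure h1
      | one => simp
      | mul a b _ _ ha hb =>
        have : p⁻¹ * (a * b) * p = (p⁻¹ * a * p) * (p⁻¹ * b * p) := by group
        rw [this]
        exact mul_mem ha hb
      | inv a _ ha =>
        have : p⁻¹ * a⁻¹ * p = (p⁻¹ * a * p)⁻¹ := by group
        rw [this]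
        exact inv_mem ha
    intro x
    obtain ⟨l, -, hl, rfl⟩ := L.geo x
    induction l with
    | nil =>
      intro s hs
      simpa using hs
    | cons p l ih =>
      intro s hs
      rw [List.prod_cons]
      have h1 := ih (fun x hx => hl x (List.mem_cons_of_mem _ hx)) (p⁻¹ * s * p)
        (hlet p (hl p List.mem_cons_self) s hs)
      have h2 : (p * l.prod)⁻¹ * s * (p * l.prod) = l.prod⁻¹ * (p⁻¹ * s * p) * l.prod := by group
      rw [h2]
      exact h1
  -- separated families in the powers of `S`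
  have hsepS : ∀ (m : ℕ) (F : Finset G), (∀ x ∈ F, x ∈ S ^ m) → SSep S F → L.Sep F := by
    intro m F hF hs x hx y hy hxy
    have h1 := hs x hx y hy hxy
    by_contra hcon
    push Not at hcon
    apply h1
    rw [hSdef]
    exact ⟨K.mul_mem (K.inv_mem (hSK m x (hF x hx)).1) (hSK m y (hF y hy)).1, by omega⟩
  have hlin : ∀ (m : ℕ) (F : Finset G), (∀ x ∈ F, x ∈ S ^ m) → SSep S F →
      (F.card : ℝ) ≤ (|C| * (r + 1)) * (m + 1) := by
    intro m F hF hs
    refine (hC (r * m) F (fun x hx => hSK m x (hF x hx)) (hsepS m F hF hs)).trans ?_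
    push_cast
    have h1 : (0 : ℝ) ≤ r := Nat.cast_nonneg r
    have h2 : (0 : ℝ) ≤ m := Nat.cast_nonneg m
    have h3 := le_abs_self C
    have h4 := abs_nonneg C
    calc C * ((r : ℝ) * m + 1) ≤ |C| * ((r : ℝ) * m + 1) :=
          mul_le_mul_of_nonneg_right h3 (by positivity)
      _ ≤ |C| * ((r + 1) * (m + 1)) := by
          refine mul_le_mul_of_nonneg_left ?_ h4
          nlinarith
      _ = |C| * (r + 1) * (m + 1) := by ring
  obtain ⟨m, F, hF1, hF2, hF3⟩ := exists_four _ hlin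
  by_cases hu : ∀ m, ¬ (S ^ (m + 1) ⊆ S ^ m)
  · -- the unbounded case
    refine ⟨r * (16 * (2 * m + 1)), fun s hs hj x => ?_⟩
    have hsN : s ∈ Subgroup.closure S := by
      apply Subgroup.subset_closure
      rw [hSdef]
      have := hj 1
      rw [zpow_one] at this
      exact ⟨hs, by omega⟩
    -- the powers of the conjugate are in one power of `S`
    have hpow : ∃ B, ∀ j : ℤ, (x⁻¹ * s * x) ^ j ∈ S ^ B := by
      obtain ⟨R, hR⟩ : ∃ R, R = 2 * L.ℓ x + 1 := ⟨_, rfl⟩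
      -- a maximal separated family
      have hex : ∃ k, ∃ F : Finset G, (∀ y ∈ F, y ∈ Subgroup.closure S ∧ L.ℓ y ≤ R) ∧ L.Sep F ∧
          F.card = k ∧ ∀ F' : Finset G, (∀ y ∈ F', y ∈ Subgroup.closure S ∧ L.ℓ y ≤ R) →
            L.Sep F' → F'.card ≤ k := by
        have hSK' : ∀ y ∈ Subgroup.closure S, y ∈ K := by
          intro y hy
          rw [hSdef] at hy
          exact NLen.closure_le hy
        have hbd : ∀ F' : Finset G, (∀ y ∈ F', y ∈ Subgroup.closure S ∧ L.ℓ y ≤ R) →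
            L.Sep F' → F'.card ≤ ⌊C * (R + 1)⌋₊ := by
          intro F' h1 h2
          exact Nat.le_floor (hC R F' (fun y hy => ⟨hSK' y (h1 y hy).1, (h1 y hy).2⟩) h2)
        let P : ℕ → Prop := fun k => ∃ F : Finset G,
          (∀ y ∈ F, y ∈ Subgroup.closure S ∧ L.ℓ y ≤ R) ∧ L.Sep F ∧ F.card = k
        have hP0 : P 0 := ⟨∅, by simp, fun y hy => by simp at hy, rfl⟩
        have hk := Nat.findGreatest_spec (P := P) (Nat.zero_le ⌊C * (R + 1)⌋₊) hP0
        obtain ⟨F, h1, h2, h3⟩ := hk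
        refine ⟨_, F, h1, h2, h3, fun F' h4 h5 => ?_⟩
        exact Nat.le_findGreatest (hbd F' h4 h5) ⟨F', h4, h5, rfl⟩
      obtain ⟨k, F0, h1, h2, h3, h4⟩ := hex
      have hB : ∃ B, ∀ y ∈ F0, y ∈ S ^ B := by
        choose! b hb using fun y (hy : y ∈ F0) => hS.mem_closure (h1 y hy).1
        refine ⟨F0.sup b, fun y hy => ?_⟩
        exact hS.mono (Finset.le_sup hy) (hb y hy)
      obtain ⟨B, hB⟩ := hB
      refine ⟨B + 1, fun j => ?_⟩
      have e : (x⁻¹ * s * x) ^ j = x⁻¹ * s ^ j * x := by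
        have := conj_zpow (i := j) (a := x⁻¹) (b := s)
        rwa [inv_inv] at this
      obtain ⟨y, hy⟩ : ∃ y, y = (x⁻¹ * s * x) ^ j := ⟨_, rfl⟩
      rw [← hy]
      have hyN : y ∈ Subgroup.closure S := by
        rw [hy]
        exact Subgroup.zpow_mem _ (hN x s hsN) j
      have hyR : L.ℓ y ≤ R := by
        rw [hy, e, hR]
        have h5 := L.mul (x⁻¹ * s ^ j) x
        have h6 := L.mul x⁻¹ (s ^ j)
        rw [L.inv] at h6
        have h7 := hj j
        omega
      by_cases hyF : y ∈ F0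
      · exact hS.mono (Nat.le_succ B) (hB y hyF)
      -- otherwise `y` is close to an element of `F0`
      have h5 : ¬ L.Sep (insert y F0) := by
        intro hcon
        have h6 := h4 (insert y F0) (by
          intro z hz
          rw [Finset.mem_insert] at hz
          rcases hz with rfl | hz
          · exact ⟨hyN, hyR⟩
          · exact h1 z hz) hcon
        rw [Finset.card_insert_of_notMem hyF, h3] at h6
        omega
      have h6 : ∃ z ∈ F0, L.ℓ (z⁻¹ * y) ≤ 4 := by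
        by_contra hcon
        push Not at hcon
        apply h5
        intro a ha b hb hab
        rw [Finset.mem_insert] at ha hb
        rcases ha with rfl | ha
        · rcases hb with rfl | hb
          · exact absurd rfl hab
          · have h7 := hcon b hb
            rwa [← L.inv, mul_inv_rev, inv_inv] at h7
        · rcases hb with rfl | hb
          · exact hcon a ha
          · exact h2 a ha b hb hab
      obtain ⟨z, hz, hzy⟩ := h6
      have h7 : z⁻¹ * y ∈ S := by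
        rw [hSdef]
        refine ⟨?_, by omega⟩
        have h8 : z⁻¹ * y ∈ Subgroup.closure S := mul_mem (inv_mem (h1 z hz).1) hyN
        rw [hSdef] at h8
        exact NLen.closure_le h8
      have h8 : y = z * (z⁻¹ * y) := by group
      rw [h8]
      exact mem_pow_add (hB z hz) (by rwa [pow_one])
    obtain ⟨B, hB⟩ := hpow
    have h1 := elliptic hS F hF1 hF2 hF3 hu (x⁻¹ * s * x) B hB
    have e : (x⁻¹ * s * x) ^ 2 = x⁻¹ * s ^ 2 * x := by
      rw [pow_two, pow_two]
      group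
    rw [e] at h1
    exact (hSK _ _ h1).2
  · -- the bounded case
    push Not at hu
    obtain ⟨B, hB⟩ := hu
    have hall : ∀ x ∈ Subgroup.closure S, x ∈ S ^ B := by
      have h1 : ∀ n, S ^ (B + n) ⊆ S ^ B := by
        intro n
        induction n with
        | zero => exact subset_rfl
        | succ n ih =>
          intro x hx
          rw [← add_assoc, pow_succ] at hx
          obtain ⟨y, hy, z, hz, rfl⟩ := hx
          apply hB
          rw [pow_succ]
          exact Set.mul_mem_mul (ih hy) hz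
      intro x hx
      obtain ⟨n, hn⟩ := hS.mem_closure hx
      exact h1 n (hS.mono (by omega) hn)
    refine ⟨r * B, fun s hs hj x => ?_⟩
    have hsN : s ∈ Subgroup.closure S := by
      apply Subgroup.subset_closure
      rw [hSdef]
      have := hj 1
      rw [zpow_one] at this
      exact ⟨hs, by omega⟩
    have h1 := hN x (s ^ 2) (Subgroup.pow_mem _ hsN 2)
    exact (hSK B _ (hall _ h1)).2

/-- **Block V, single level form.** -/
theorem stmt1 [Nontrivial W] (h : Data1 L W π c C) :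
    (∀ (m : ℕ) (u : Fin m → W), Orthonormal ℝ u → m ≤ 2) ∧
    ∃ D : ℕ, ∀ s : G, (∀ j : ℤ, L.ℓ (s ^ j) ≤ 1) → c s = 0 → π s = 1 →
      ∀ x, L.ℓ (x⁻¹ * s ^ 2 * x) ≤ D := by
  refine ⟨fun m u hu => h.dim_le u hu, ?_⟩
  obtain ⟨C', hC'0, hC'⟩ := h.count_one
  obtain ⟨D, hD⟩ := scl L h.K (fun s hs g => h.K_normal hs g) C' hC' (V.gap L h.K C h.pack)
  exact ⟨D, fun s hj h1 h2 x => hD s ⟨h1, h2⟩ hj x⟩

end Vale.Agent.P151.R3.H17

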